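import Vale.Agent.P260Z.Ob.Reg.Walls
import Vale.Agent.P215Z.Frm.Items
import Vale.Agent.P215Z.Frm.Log

/-! R2a, tools: congruences of units, constants, conjugation -/

noncomputable section
set_option linter.unusedSectionVars false
variable [Vale.Agent.P215Z.K.Geom]
namespace Vale.Agent.P215Z.K
open MvPolynomial Classical

set_option linter.unusedSectionVars false

namespace RSh
variable {O : Type} [CommRing O] [Algebra ℚ O]

/-- constant units -/
def cstU : (M2 O)ˣ →* (MM O)ˣ :=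
  Units.map (RingHom.mapMatrix (m := Fin 2) (C : O →+* RR O)).toMonoidHom

theorem coe_cstU (g : (M2 O)ˣ) : (cstU g : MM O) = cst (g : M2 O) := rfl

/-- evaluation at zero as a homomorphism -/
def at0H : (MM O)ˣ →* (M2 O)ˣ :=
  Units.map (RingHom.mapMatrix (m := Fin 2) (constantCoeff : RR O →+* O)).toMonoidHom

theorem at0H_eq (g : (MM O)ˣ) : at0H g = at0U g := rfl

theorem at0U_mul (g g' : (MM O)ˣ) : at0U (g * g') = at0U g * at0U g' := map_mul at0H g g'
theorem at0U_inv (g : (MM O)ˣ) : at0U g⁻¹ = (at0U g)⁻¹ := map_inv at0H g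

theorem at0U_cstU (g : (M2 O)ˣ) : at0U (cstU g) = g := by
  apply Units.ext
  rw [coe_at0U, coe_cstU, at0_cst]

theorem cst_mul (y z : M2 O) : cst (y * z) = cst y * cst z :=
  map_mul (RingHom.mapMatrix (m := Fin 2) (C : O →+* RR O)) y z
theorem cst_sub (y z : M2 O) : cst (y - z) = cst y - cst z :=
  map_sub (RingHom.mapMatrix (m := Fin 2) (C : O →+* RR O)) y z
theorem cst_zero : cst (0 : M2 O) = 0 :=
  map_zero (RingHom.mapMatrix (m := Fin 2) (C : O →+* RR O))
theorem at0_sub (y z : MM O) : at0 (y - z) = at0 y - at0 z :=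
  map_sub (RingHom.mapMatrix (m := Fin 2) (constantCoeff : RR O →+* O)) y z
theorem at0_zero : at0 (0 : MM O) = 0 :=
  map_zero (RingHom.mapMatrix (m := Fin 2) (constantCoeff : RR O →+* O))

theorem cst_lie (y z : M2 O) : cst ⁅y, z⁆ = ⁅cst y, cst z⁆ := by
  simp only [Ring.lie_def, cst_sub, cst_mul]
theorem at0_lie (y z : MM O) : at0 ⁅y, z⁆ = ⁅at0 y, at0 z⁆ := by
  simp only [Ring.lie_def, at0_sub, at0_mul]

theorem at0_Ad (g : (MM O)ˣ) (y : MM O) : at0 (Ad g y) = Ad (at0U g) (at0 y) := by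
  unfold Ad
  rw [at0_mul, at0_mul, ← at0U_inv, coe_at0U, coe_at0U]

theorem Ad_cstU (g : (M2 O)ˣ) (y : M2 O) : Ad (cstU g) (cst y) = cst (Ad g y) := by
  unfold Ad
  rw [cst_mul, cst_mul, ← map_inv, coe_cstU, coe_cstU]

theorem Ad_zero {R : Type} [Ring R] (g : Rˣ) : Ad g (0 : R) = 0 := by simp [Ad]
theorem Ad_one {R : Type} [Ring R] (y : R) : Ad 1 y = y := by simp [Ad]
theorem Ad_sub' {R : Type} [Ring R] (g : Rˣ) (y z : R) : Ad g (y - z) = Ad g y - Ad g z := by
  simp only [Ad, mul_sub, sub_mul]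

variable {b b' ii : Ideal O} {x y z : MM O}

theorem inI_zero : InI b (0 : MM O) := InC.zero
theorem inI_add (hx : InI b x) (hy : InI b y) : InI b (x + y) := InC.add hx hy
theorem inI_sub (hx : InI b x) (hy : InI b y) : InI b (x - y) := InC.sub hx hy
theorem inI_neg (hx : InI b x) : InI b (-x) := InC.neg hx
theorem inI_ml (hy : InI b y) (x : MM O) : InI b (x * y) := InC.mul_left hy x
theorem inI_mr (hx : InI b x) (y : MM O) : InI b (x * y) := InC.mul_right hx y
theorem inI_Ad (hx : InI b x) (g : (MM O)ˣ) : InI b (Ad g x) := InC.Ad hx g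
theorem inI_trans (h : InI b (x - y)) (h' : InI b (y - z)) : InI b (x - z) := by
  have := inI_add h h'
  rwa [sub_add_sub_cancel] at this
theorem inI_symm (h : InI b (x - y)) : InI b (y - x) := by
  have := inI_neg h
  rwa [neg_sub] at this
theorem inI_Ad_sub (h : InI b (x - y)) (g : (MM O)ˣ) : InI b (Ad g x - Ad g y) := by
  rw [← Ad_sub']
  exact inI_Ad h g

theorem inI_Ad_cong (hii : ii * ii = ⊥) (hx : InI ii x) {g g' : (MM O)ˣ}
    (h : InI (b ⊔ ii) ((g : MM O) - g')) : InI (ii * b) (Ad g x - Ad g' x) := by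
  rw [inI_iff, Ideal.map_mul]
  refine InC.Ad_sub ?_ hx ?_
  · rw [← Ideal.map_mul, hii, Ideal.map_bot]
  · rw [← Ideal.map_sup]
    exact h

theorem mul_sup_le (hii : ii * ii = ⊥) : ii * (b ⊔ ii) ≤ ii * b := by
  rw [Ideal.mul_sup, hii, sup_bot_eq]

theorem inI_lie (hii : ii * ii = ⊥) (hx : InI ii x) (hy : InI (b ⊔ ii) y) :
    InI (ii * b) ⁅x, y⁆ := by
  rw [Ring.lie_def]
  refine inI_sub ((hx.mul hy).mono (mul_sup_le hii)) ((hy.mul hx).mono ?_)
  rw [mul_comm]
  exact mul_sup_le hii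

/-- the class of a unit modulo `b` -/
def qq (b : Ideal O) : (MM O)ˣ →* (MM O)ˣ ⧸ UG b := QuotientGroup.mk' (UG b)

theorem qq_iff (g g' : (MM O)ˣ) : InI b ((g : MM O) - g') ↔ qq b g = qq b g' := by
  rw [inI_sub_iff, ← div_eq_mul_inv]
  exact (QuotientGroup.eq_iff_div_mem (N := UG b)).symm

theorem qq_one (g : (MM O)ˣ) : g ∈ UG b ↔ qq b g = 1 :=
  (QuotientGroup.eq_one_iff (N := UG b) g).symm

theorem qq_at0 {g g' : (MM O)ˣ} (h : qq b g = qq b g') :
    qq b (cstU (at0U g)) = qq b (cstU (at0U g')) := by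
  rw [← qq_iff] at h ⊢
  rw [coe_cstU, coe_cstU, ← cst_sub, inI_cst, coe_at0U, coe_at0U, ← at0_sub]
  exact h.at0

/-- the normal form of a transport -/
theorem qq_shift {g u : (MM O)ˣ} {c : (M2 O)ˣ} (hu : at0U u = 1) (h : qq b g = qq b (cstU c * u)) :
    qq b g = qq b (cstU (at0U g) * u) := by
  have := qq_at0 h
  rw [at0U_mul, hu, mul_one, at0U_cstU] at this
  rw [h, map_mul, map_mul, this]

theorem qq_iff' (g u : (MM O)ˣ) : InI b ((g : MM O) - cst (at0 (g : MM O)) * u) ↔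
    qq b g = qq b (cstU (at0U g) * u) := by
  rw [← qq_iff]
  rfl

theorem qq_iff2 (g g' u : (MM O)ˣ) : InI b ((g : MM O) - cst (at0 (g' : MM O)) * u) ↔
    qq b g = qq b (cstU (at0U g') * u) := by
  rw [← qq_iff]
  rfl

/-- the units which commute with `o` modulo `b` -/
def cen (b : Ideal O) (o : MM O) : Subgroup (MM O)ˣ where
  carrier := {g | InI b ⁅o, (g : MM O)⁆}
  mul_mem' := by
    intro g h hg hh
    have e : ⁅o, ((g * h : (MM O)ˣ) : MM O)⁆ = ⁅o, (g : MM O)⁆ * h + g * ⁅o, (h : MM O)⁆ := by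
      simp only [Ring.lie_def, Units.val_mul]
      noncomm_ring
    change InI b _
    rw [e]
    exact inI_add (inI_mr hg _) (inI_ml hh _)
  one_mem' := by
    change InI b _
    simp only [Ring.lie_def, Units.val_one, mul_one, one_mul, sub_self]
    exact inI_zero
  inv_mem' := by
    intro g hg
    have e : ⁅o, ((g⁻¹ : (MM O)ˣ) : MM O)⁆ =
        -((g⁻¹ : (MM O)ˣ) * ⁅o, (g : MM O)⁆ * (g⁻¹ : (MM O)ˣ)) := by
      simp only [Ring.lie_def, mul_sub, sub_mul, mul_assoc, Units.mul_inv, mul_one,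
        Units.inv_mul_cancel_left, neg_sub]
    change InI b _
    rw [e]
    exact inI_neg (inI_mr (inI_ml hg _) _)

theorem mem_cen {o : MM O} {g : (MM O)ˣ} : g ∈ cen b o ↔ InI b ⁅o, (g : MM O)⁆ := Iff.rfl

theorem cen_iff {o : MM O} {g : (MM O)ˣ} : g ∈ cen b o ↔ InI b (Ad g o - o) := by
  rw [mem_cen]
  constructor
  · intro h
    have e : Ad g o - o = (g⁻¹ : (MM O)ˣ) * ⁅o, (g : MM O)⁆ := by
      simp only [Ad, Ring.lie_def, mul_sub, mul_assoc, Units.inv_mul_cancel_left]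
    rw [e]
    exact inI_ml h _
  · intro h
    have e : ⁅o, (g : MM O)⁆ = g * (Ad g o - o) := by
      simp only [Ad, Ring.lie_def, mul_sub, mul_assoc, Units.mul_inv_cancel_left]
    rw [e]
    exact inI_ml h _

theorem cen_conj {o : MM O} {g k : (MM O)ˣ} (h : g ∈ cen b (Ad k o)) : k * g * k⁻¹ ∈ cen b o := by
  rw [cen_iff] at h ⊢
  have := inI_Ad_sub h k⁻¹
  rwa [← Ad_mul, ← Ad_mul, ← Ad_mul, mul_inv_cancel, Ad_one, ← mul_assoc] at this

theorem cen_congr {o o' : MM O} {g : (MM O)ˣ} (h : InI b (o - o')) (hg : g ∈ cen b o') :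
    g ∈ cen b o := by
  rw [cen_iff] at hg ⊢
  exact inI_trans (inI_Ad_sub h g) (inI_trans hg (inI_symm h))

/-! ### paths -/

theorem holL_mem {α G : Type} [Group G] (U : α → α → G) (H : Subgroup G) {R : α → α → Prop}
    (hR : ∀ x y, R x y → U x y ∈ H) : ∀ l : List α, l.IsChain R → holL U l ∈ H
  | [], _ => H.one_mem
  | [_], _ => H.one_mem
  | x :: y :: l, h => by
    rw [List.isChain_cons_cons] at h
    exact H.mul_mem (hR _ _ h.1) (holL_mem U H hR (y :: l) h.2)

theorem holN_mem {α G : Type} [Group G] (U : α → α → G) (H : Subgroup G) (x : ℕ → α) :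
    ∀ n, (∀ k < n, U (x k) (x (k + 1)) ∈ H) → holN U x n ∈ H
  | 0, _ => H.one_mem
  | n + 1, h => H.mul_mem (holN_mem U H x n fun k hk => h k (by omega)) (h n (by omega))

theorem holL_congr' {α G : Type} [Group G] {U V : α → α → G} {R : α → α → Prop}
    (hR : ∀ x y, R x y → U x y = V x y) : ∀ l : List α, l.IsChain R → holL U l = holL V l
  | [], _ => rfl
  | [_], _ => rfl
  | x :: y :: l, h => by
    rw [List.isChain_cons_cons] at h
    simp only [holL]
    rw [hR _ _ h.1, holL_congr' hR (y :: l) h.2]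

theorem holN_congr' {α G : Type} [Group G] {U V : α → α → G} (x : ℕ → α) :
    ∀ n, (∀ k < n, U (x k) (x (k + 1)) = V (x k) (x (k + 1))) → holN U x n = holN V x n
  | 0, _ => rfl
  | n + 1, h => by
    simp only [holN]
    rw [holN_congr' x n fun k hk => h k (by omega), h n (by omega)]

theorem holN_comp {α β G : Type} [Group G] (U : β → β → G) (f : α → β) (x : ℕ → α) :
    ∀ n, holN (fun a a' => U (f a) (f a')) x n = holN U (fun k => f (x k)) n
  | 0 => rfl
  | n + 1 => by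
    simp only [holN]
    rw [holN_comp U f x n]

/-! ### corners -/

theorem corner_cases {f r : Gp} (h : Corner f r) :
    r = f ∨ r = f + (1, 0) ∨ r = f + (1, 1) ∨ r = f + (0, 1) := by
  obtain ⟨a, b⟩ := f
  obtain ⟨c, d⟩ := r
  simp only [Corner, Prod.mk_add_mk, Prod.mk.injEq] at h ⊢
  omega

theorem nxt0 (f : Gp) : nxt f f = f + (1, 0) := by simp [nxt]
theorem nxt1 (f : Gp) : nxt f (f + (1, 0)) = f + (1, 1) := by simp [nxt]
theorem nxt2 (f : Gp) : nxt f (f + (1, 1)) = f + (0, 1) := by simp [nxt]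
theorem nxt3 (f : Gp) : nxt f (f + (0, 1)) = f := by simp [nxt]

theorem corner_nxt {f r : Gp} (h : Corner f r) :
    Corner f (nxt f r) ∧ GAdj r (nxt f r) ∧ lf r (nxt f r) = f := by
  obtain ⟨a, b⟩ := f
  rcases corner_cases h with rfl | rfl | rfl | rfl
  · rw [nxt0]; simp [Corner, GAdj, lf]
  · rw [nxt1]; simp [Corner, GAdj, lf]
  · rw [nxt2]; simp [Corner, GAdj, lf]; omega
  · rw [nxt3]; simp [Corner, GAdj, lf]; omega

theorem corner_orbit {f r r' : Gp} (h : Corner f r) (h' : Corner f r') :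
    r' = r ∨ r' = nxt f r ∨ r' = nxt f (nxt f r) ∨ r' = nxt f (nxt f (nxt f r)) := by
  rcases corner_cases h with rfl | rfl | rfl | rfl <;>
    rcases corner_cases h' with h' | h' | h' | h' <;>
    simp only [nxt0, nxt1, nxt2, nxt3, h', true_or, or_true]

theorem affP_add (π : Equiv.Perm (Fin 4)) (u v : Pt) (k : Fin 4) :
    affP π u (v + 2 • ee k) = affP π u v + 2 • ee (π.symm k) := by
  funext j
  simp only [affP, ee, Pi.add_apply, Pi.smul_apply, Pi.single_apply, Equiv.eq_symm_apply]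
  ring

theorem affP_sub (π : Equiv.Perm (Fin 4)) (u v : Pt) (k : Fin 4) :
    affP π u (v - 2 • ee k) = affP π u v - 2 • ee (π.symm k) := by
  funext j
  simp only [affP, ee, Pi.sub_apply, Pi.smul_apply, Pi.single_apply, Equiv.eq_symm_apply]
  ring

theorem padj_dm {N : ℕ} (hN : 0 < N) (l : Lg) {v v' : Pt} (h : PAdj (V0 l.1 (3 * N)) v v') :
    PAdj (KR N) (dm N l v) (dm N l v') := by
  obtain ⟨h1, h2, k, h3⟩ := h
  refine ⟨fun j => ?_, ?_, (prm l).symm k, ?_⟩
  · rw [dm_eq, ← Int.not_odd_iff_even, odd_affP, Int.not_odd_iff_even]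
    exact h1 _
  · have := dm_V0 hN l h2
    rwa [dm_eq, affP_midp, ← dm_eq, ← dm_eq] at this
  · rcases h3 with rfl | rfl
    · left; rw [dm_eq, dm_eq, affP_add]
    · right; rw [dm_eq, dm_eq, affP_sub]

theorem upTo_zero (p : Pt) : upTo p 0 = wv p := by
  funext j
  simp [upTo]

theorem upTo_four (p : Pt) : upTo p 4 = p := by
  funext j
  simp [upTo]

end RSh
end Vale.Agent.P215Z.K
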